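import Vale.Agent.Lib.P113.Main

/-!
P113: the positive answer to the question on halting detection by particle trajectories of forced
Navier-Stokes flows from rest. The statement is `HaltingDetection`, in the file of definitions.
-/

namespace Vale.Agent.Results.P113.A_main

open Vale.Agent.Lib.P113

/-- For every computable viscosity, the particle trajectories of forced Navier-Stokes flows from rest
detect halting of Turing machines. -/
theorem result (ν : ℝ) (hν : 0 < ν) (hc : IsComputableReal ν) : HaltingDetection ν :=
  haltingDetection ν hν hc

end Vale.Agent.Results.P113.A_main
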